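import Mathlib

/-!
The first moment bound: the expected number of collisions modulo `a` among the subproducts of
a random tuple of primes.
-/

namespace Vale.Agent.Lib.P012d

open Finset

section tuples

variable {ι : Type*} [DecidableEq ι]

open Classical in
/-- A number has at most `f!` ordered factorisations into `f` primes. -/
lemma tuple_count (F : Finset ι) :
    ∀ (Ω : Finset (ι → ℕ)) (r : ι → ℕ) (x : ℕ),
      (Ω.filter fun q : ι → ℕ => (∀ j, j ∉ F → q j = r j) ∧ (∀ j ∈ F, (q j).Prime) ∧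
        ∏ j ∈ F, q j = x).card ≤ F.card.factorial := by
  induction F using Finset.induction_on with
  | empty =>
    intro Ω r x
    simp only [Finset.card_empty, Nat.factorial_zero]
    refine Finset.card_le_one.2 ?_
    intro q hq q' hq'
    have h1 := (Finset.mem_filter.1 hq).2.1
    have h2 := (Finset.mem_filter.1 hq').2.1
    funext j
    rw [h1 j (by simp), h2 j (by simp)]
  | insert j₀ F' hj₀ ih =>
    intro Ω r x
    set s := Ω.filter fun q : ι → ℕ => (∀ j, j ∉ insert j₀ F' → q j = r j) ∧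
      (∀ j ∈ insert j₀ F', (q j).Prime) ∧ ∏ j ∈ insert j₀ F', q j = x with hs
    rw [Finset.card_insert_of_notMem hj₀, Nat.factorial_succ]
    rcases s.eq_empty_or_nonempty with h0 | ⟨q₀, hq₀⟩
    · rw [h0]
      simp
    have hmem : ∀ q ∈ s, (∀ j, j ∉ insert j₀ F' → q j = r j) ∧
      (∀ j ∈ insert j₀ F', (q j).Prime) ∧ ∏ j ∈ insert j₀ F', q j = x :=
      fun q hq => (Finset.mem_filter.1 hq).2
    have hfib : ∀ ℓ ∈ s.image (fun q => q j₀), (s.filter fun q => q j₀ = ℓ).card ≤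
        F'.card.factorial := by
      intro ℓ _
      refine le_trans (Finset.card_le_card ?_) (ih Ω (Function.update r j₀ ℓ) (x / ℓ))
      intro q hq
      obtain ⟨hq1, hq2⟩ := Finset.mem_filter.1 hq
      obtain ⟨hqΩ, hq3⟩ := Finset.mem_filter.1 hq1
      obtain ⟨ha, hb, hc⟩ := hq3
      refine Finset.mem_filter.2 ⟨hqΩ, ?_, fun j hj => hb j (Finset.mem_insert_of_mem hj), ?_⟩
      · intro j hj
        by_cases hjj : j = j₀
        · subst hjj
          simp [hq2]
        · rw [Function.update_of_ne hjj]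
          exact ha j (by simp [hjj, hj])
      · rw [Finset.prod_insert hj₀, hq2] at hc
        have hℓ : 0 < ℓ := by
          rw [← hq2]
          exact (hb j₀ (Finset.mem_insert_self _ _)).pos
        rw [← hc, Nat.mul_div_cancel_left _ hℓ]
    have himg : (s.image (fun q => q j₀)).card ≤ F'.card + 1 := by
      have hsub : s.image (fun q => q j₀) ⊆ (insert j₀ F').image q₀ := by
        intro ℓ hℓ
        obtain ⟨q, hq, rfl⟩ := Finset.mem_image.1 hℓ
        obtain ⟨_, hb, hc⟩ := hmem q hq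
        obtain ⟨_, hb₀, hc₀⟩ := hmem q₀ hq₀
        have hp : (q j₀).Prime := hb j₀ (Finset.mem_insert_self _ _)
        have hd : q j₀ ∣ ∏ j ∈ insert j₀ F', q₀ j := by
          rw [hc₀, ← hc]
          exact Finset.dvd_prod_of_mem _ (Finset.mem_insert_self _ _)
        obtain ⟨j, hj, hdj⟩ := (Prime.dvd_finsetProd_iff hp.prime _).1 hd
        refine Finset.mem_image.2 ⟨j, hj, ?_⟩
        exact ((Nat.prime_dvd_prime_iff_eq hp (hb₀ j hj)).1 hdj).symm
      refine (Finset.card_le_card hsub).trans (Finset.card_image_le.trans ?_)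
      rw [Finset.card_insert_of_notMem hj₀]
    calc s.card ≤ F'.card.factorial * (s.image (fun q => q j₀)).card :=
          Finset.card_le_mul_card_image s _ hfib
      _ ≤ F'.card.factorial * (F'.card + 1) := Nat.mul_le_mul_left _ himg
      _ = (F'.card + 1) * F'.card.factorial := by ring

/-- A set of pairwise congruent numbers in `[0, M]` has at most `M / a + 1` elements. -/
lemma card_le_of_pairwise_modEq {a M : ℕ} (T : Finset ℕ) (hT : ∀ x ∈ T, x ≤ M)
    (hc : ∀ x ∈ T, ∀ y ∈ T, x ≡ y [MOD a]) : T.card ≤ M / a + 1 := by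
  have h : T.card ≤ (Finset.range (M / a + 1)).card := by
    refine Finset.card_le_card_of_injOn (fun x => x / a) ?_ ?_
    · intro x hx
      simp only [Finset.coe_range, Set.mem_Iio]
      exact Nat.lt_succ_of_le (Nat.div_le_div_right (hT x hx))
    · intro x hx y hy hxy
      simp only at hxy
      have h1 : x % a = y % a := hc x hx y hy
      rw [← Nat.div_add_mod x a, ← Nat.div_add_mod y a, h1, hxy]
  simpa using h

/-- The number of tuples of primes whose product lies in a fixed residue class. -/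
lemma tuple_residue_count {F : Finset ι} {a Y : ℕ} (r : ι → ℕ) (s : Finset (ι → ℕ))
    (h1 : ∀ q ∈ s, ∀ j, j ∉ F → q j = r j) (h2 : ∀ q ∈ s, ∀ j ∈ F, (q j).Prime ∧ q j ≤ Y)
    (h3 : ∀ q ∈ s, ∀ q' ∈ s, ∏ j ∈ F, q j ≡ ∏ j ∈ F, q' j [MOD a]) :
    s.card ≤ F.card.factorial * (Y ^ F.card / a + 1) := by
  classical
  have hfib : ∀ x ∈ s.image (fun q => ∏ j ∈ F, q j),
      (s.filter fun q => ∏ j ∈ F, q j = x).card ≤ F.card.factorial := by
    intro x _
    refine le_trans (Finset.card_le_card ?_) (tuple_count F s r x)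
    intro q hq
    obtain ⟨hq1, hq2⟩ := Finset.mem_filter.1 hq
    exact Finset.mem_filter.2 ⟨hq1, h1 q hq1, fun j hj => (h2 q hq1 j hj).1, hq2⟩
  have himg : (s.image (fun q => ∏ j ∈ F, q j)).card ≤ Y ^ F.card / a + 1 := by
    apply card_le_of_pairwise_modEq
    · intro x hx
      obtain ⟨q, hq, rfl⟩ := Finset.mem_image.1 hx
      exact Finset.prod_le_pow_card _ _ _ fun j hj => (h2 q hq j hj).2
    · intro x hx y hy
      obtain ⟨q, hq, rfl⟩ := Finset.mem_image.1 hx
      obtain ⟨q', hq', rfl⟩ := Finset.mem_image.1 hy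
      exact h3 q hq q' hq'
  exact (Finset.card_le_mul_card_image s _ hfib).trans (Nat.mul_le_mul_left _ himg)

end tuples

/-- The product over a subset of coordinates. -/
def pw {n : ℕ} (p : Fin n → ℕ) (A : Finset (Fin n)) : ℕ := ∏ j ∈ A, p j

/-- The number of tuples in which a fixed collision occurs modulo `a`. -/
lemma count_pair {n : ℕ} {Pr : Finset ℕ} {Y a : ℕ} (hPr : ∀ q ∈ Pr, q.Prime ∧ q ≤ Y)
    (A A' F : Finset (Fin n)) (hF : F ⊆ A \ A') :
    ((Fintype.piFinset fun _ : Fin n => Pr).filter fun p =>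
        (∀ j, (p j).Coprime a) ∧ pw p A ≡ pw p A' [MOD a]).card * Pr.card ^ F.card
      ≤ Pr.card ^ n * (F.card.factorial * (Y ^ F.card / a + 1)) := by
  classical
  set s := (Fintype.piFinset fun _ : Fin n => Pr).filter fun p =>
        (∀ j, (p j).Coprime a) ∧ pw p A ≡ pw p A' [MOD a] with hs
  have hFA : F ⊆ A := fun j hj => (Finset.mem_sdiff.1 (hF hj)).1
  have hFA' : ∀ j ∈ F, j ∉ A' := fun j hj => (Finset.mem_sdiff.1 (hF hj)).2
  set ρ : (Fin n → ℕ) → (Fin n → ℕ) := fun p j => if j ∈ F then 0 else p j with hρ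
  have hfib : ∀ r ∈ s.image ρ, (s.filter fun p => ρ p = r).card ≤
      F.card.factorial * (Y ^ F.card / a + 1) := by
    intro r _
    have hoff : ∀ p ∈ s.filter (fun p => ρ p = r), ∀ j, j ∉ F → p j = r j := by
      intro p hp j hj
      have h := (Finset.mem_filter.1 hp).2
      rw [← h]
      simp [hρ, hj]
    apply tuple_residue_count r _ hoff
    · intro q hq j _
      have h := (Finset.mem_filter.1 (Finset.mem_filter.1 hq).1).1
      exact hPr _ (Fintype.mem_piFinset.1 h j)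
    · intro q hq q' hq'
      have hq1 := (Finset.mem_filter.1 (Finset.mem_filter.1 hq).1).2
      have hq1' := (Finset.mem_filter.1 (Finset.mem_filter.1 hq').1).2
      -- factor out the part outside `F`
      have hsplit : ∀ p ∈ s.filter (fun p => ρ p = r),
          pw p A = (∏ j ∈ F, p j) * ∏ j ∈ A \ F, r j := by
        intro p hp
        rw [pw, ← Finset.prod_sdiff hFA, mul_comm]
        congr 1
        refine Finset.prod_congr rfl fun j hj => ?_
        exact hoff p hp j (Finset.mem_sdiff.1 hj).2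
      have hA' : ∀ p ∈ s.filter (fun p => ρ p = r), pw p A' = ∏ j ∈ A', r j := by
        intro p hp
        refine Finset.prod_congr rfl fun j hj => ?_
        exact hoff p hp j fun hjF => hFA' j hjF hj
      have hu : (∏ j ∈ A \ F, r j).Coprime a := by
        apply Nat.Coprime.prod_left
        intro j hj
        rw [← hoff q hq j (Finset.mem_sdiff.1 hj).2]
        exact hq1.1 j
      have hchain : (∏ j ∈ F, q j) * ∏ j ∈ A \ F, r j ≡ (∏ j ∈ F, q' j) * ∏ j ∈ A \ F, r j [MOD a] := by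
        rw [← hsplit q hq, ← hsplit q' hq']
        calc pw q A ≡ pw q A' [MOD a] := hq1.2
          _ = pw q' A' := by rw [hA' q hq, hA' q' hq']
          _ ≡ pw q' A [MOD a] := hq1'.2.symm
      exact Nat.ModEq.cancel_right_of_coprime (by
        rw [Nat.gcd_comm]
        exact hu) hchain
  have hW : s.image ρ ⊆ Fintype.piFinset fun j : Fin n => if j ∈ F then {0} else Pr := by
    intro r hr
    obtain ⟨p, hp, rfl⟩ := Finset.mem_image.1 hr
    refine Fintype.mem_piFinset.2 fun j => ?_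
    by_cases hj : j ∈ F
    · simp [hρ, hj]
    · simp only [hρ, hj, if_false]
      exact Fintype.mem_piFinset.1 (Finset.mem_filter.1 hp).1 j
  have hWcard : (Fintype.piFinset fun j : Fin n => if j ∈ F then ({0} : Finset ℕ) else Pr).card *
      Pr.card ^ F.card = Pr.card ^ n := by
    rw [Fintype.card_piFinset]
    have h1 : Pr.card ^ F.card = ∏ j : Fin n, if j ∈ F then Pr.card else 1 := by
      rw [Finset.prod_ite_mem]
      simp
    rw [h1, ← Finset.prod_mul_distrib]
    have h2 : ∀ j : Fin n, (if j ∈ F then ({0} : Finset ℕ) else Pr).card *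
        (if j ∈ F then Pr.card else 1) = Pr.card := by
      intro j
      by_cases hj : j ∈ F <;> simp [hj]
    simp [h2]
  calc s.card * Pr.card ^ F.card
      ≤ (F.card.factorial * (Y ^ F.card / a + 1)) * (s.image ρ).card * Pr.card ^ F.card :=
        Nat.mul_le_mul_right _ (Finset.card_le_mul_card_image s _ hfib)
    _ ≤ (F.card.factorial * (Y ^ F.card / a + 1)) *
        (Fintype.piFinset fun j : Fin n => if j ∈ F then ({0} : Finset ℕ) else Pr).card *
          Pr.card ^ F.card := by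
        gcongr
    _ = Pr.card ^ n * (F.card.factorial * (Y ^ F.card / a + 1)) := by
        rw [mul_assoc, hWcard, mul_comm]

/-- The generating function of the difference sizes. -/
lemma sum_pow_card_sdiff {α : Type*} [DecidableEq α] (x : ℝ) (s : Finset α) :
    ∑ A ∈ s.powerset, ∑ A' ∈ s.powerset, x ^ (A \ A').card = (3 + x) ^ s.card := by
  induction s using Finset.induction_on with
  | empty => simp
  | insert a s ha ih =>
    have hnot : ∀ A ∈ s.powerset, a ∉ A := fun A hA h =>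
      ha (Finset.mem_powerset.1 hA h)
    rw [Finset.card_insert_of_notMem ha, pow_succ, ← ih, Finset.sum_powerset_insert ha]
    have h1 : ∀ A ∈ s.powerset, ∑ A' ∈ (insert a s).powerset, x ^ (A \ A').card
        = 2 * ∑ A' ∈ s.powerset, x ^ (A \ A').card := by
      intro A hA
      rw [Finset.sum_powerset_insert ha, two_mul]
      congr 1
      refine Finset.sum_congr rfl fun A' _ => ?_
      rw [Finset.sdiff_insert_of_notMem (hnot A hA)]
    have h2 : ∀ A ∈ s.powerset, ∑ A' ∈ (insert a s).powerset, x ^ (insert a A \ A').card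
        = (1 + x) * ∑ A' ∈ s.powerset, x ^ (A \ A').card := by
      intro A hA
      rw [Finset.sum_powerset_insert ha, add_mul, one_mul, add_comm, Finset.mul_sum]
      congr 1
      · refine Finset.sum_congr rfl fun A' hA' => ?_
        rw [Finset.insert_sdiff_of_mem _ (Finset.mem_insert_self a A'),
          Finset.sdiff_insert_of_notMem (hnot A hA)]
      · refine Finset.sum_congr rfl fun A' hA' => ?_
        rw [Finset.insert_sdiff_of_notMem _ (hnot A' hA'), Finset.card_insert_of_notMem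
          (fun h => hnot A hA (Finset.mem_sdiff.1 h).1), pow_succ]
        ring
    rw [Finset.sum_congr rfl h1, Finset.sum_congr rfl h2, ← Finset.mul_sum, ← Finset.mul_sum]
    ring

/-- The number of pairs of subsets whose subproducts collide modulo `a`. -/
def coll {n : ℕ} (p : Fin n → ℕ) (a : ℕ) : ℕ :=
  ((univ : Finset (Finset (Fin n) × Finset (Fin n))).filter fun z =>
    pw p z.1 ≡ pw p z.2 [MOD a]).card

/-- The collision count of tuples coprime to `a`. -/
def gg {n : ℕ} (p : Fin n → ℕ) (a : ℕ) : ℕ := if ∀ j, (p j).Coprime a then coll p a else 0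

/-- The total collision count of all tuples coprime to `a`. -/
def Phi (n : ℕ) (Pr : Finset ℕ) (a : ℕ) : ℕ :=
  ∑ p ∈ Fintype.piFinset (fun _ : Fin n => Pr), gg p a

lemma Phi_eq (n : ℕ) (Pr : Finset ℕ) (a : ℕ) :
    Phi n Pr a = ∑ z : Finset (Fin n) × Finset (Fin n),
      ((Fintype.piFinset fun _ : Fin n => Pr).filter fun p =>
        (∀ j, (p j).Coprime a) ∧ pw p z.1 ≡ pw p z.2 [MOD a]).card := by
  have h1 : ∀ p : Fin n → ℕ, gg p a = ∑ z : Finset (Fin n) × Finset (Fin n),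
      if (∀ j, (p j).Coprime a) ∧ pw p z.1 ≡ pw p z.2 [MOD a] then 1 else 0 := by
    intro p
    unfold gg coll
    by_cases hp : ∀ j, (p j).Coprime a
    · rw [if_pos hp]
      simp only [and_iff_right hp]
      rw [Finset.card_filter]
    · rw [if_neg hp]
      exact (Finset.sum_eq_zero fun z _ => if_neg fun h => hp h.1).symm
  unfold Phi
  simp_rw [h1]
  rw [Finset.sum_comm]
  refine Finset.sum_congr rfl fun z _ => ?_
  rw [Finset.card_filter]

lemma card_bad (n f : ℕ) :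
    (((univ : Finset (Finset (Fin n) × Finset (Fin n))).filter
      fun z : Finset (Fin n) × Finset (Fin n) =>
      (z.1 \ z.2).card < f).card : ℝ) ≤ 2 ^ f * (7 / 2) ^ n := by
  have key := sum_pow_card_sdiff (1 / 2 : ℝ) (univ : Finset (Fin n))
  rw [Finset.powerset_univ, Finset.card_univ, Fintype.card_fin] at key
  have h1 : ∑ z : Finset (Fin n) × Finset (Fin n), ((1 : ℝ) / 2) ^ (z.1 \ z.2).card
      = (7 / 2) ^ n := by
    rw [← Finset.univ_product_univ, Finset.sum_product, key]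
    norm_num
  set bad := (univ : Finset (Finset (Fin n) × Finset (Fin n))).filter
      (fun z : Finset (Fin n) × Finset (Fin n) => (z.1 \ z.2).card < f) with hbad
  have h2 : (bad.card : ℝ) * ((1 : ℝ) / 2) ^ f ≤ (7 / 2) ^ n := by
    rw [← h1, ← nsmul_eq_mul, ← Finset.sum_const]
    calc ∑ _z ∈ bad, ((1 : ℝ) / 2) ^ f
        ≤ ∑ z ∈ bad, ((1 : ℝ) / 2) ^ (z.1 \ z.2).card := by
          refine Finset.sum_le_sum fun z hz => ?_
          exact pow_le_pow_of_le_one (by norm_num) (by norm_num)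
            (Finset.mem_filter.1 hz).2.le
      _ ≤ ∑ z : Finset (Fin n) × Finset (Fin n), ((1 : ℝ) / 2) ^ (z.1 \ z.2).card :=
          Finset.sum_le_sum_of_subset_of_nonneg (Finset.subset_univ _)
            fun _ _ _ => by positivity
  have h3 : (2 : ℝ) ^ f * ((1 : ℝ) / 2) ^ f = 1 := by
    rw [← mul_pow]
    norm_num
  calc (bad.card : ℝ) = 2 ^ f * ((bad.card : ℝ) * ((1 : ℝ) / 2) ^ f) := by
        rw [mul_left_comm, h3, mul_one]
    _ ≤ 2 ^ f * (7 / 2) ^ n := by gcongr

/-- The bound for the first moment in raw form. -/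
lemma moment_raw {n : ℕ} {Pr : Finset ℕ} {Y a : ℕ} (f : ℕ) (hPr : ∀ q ∈ Pr, q.Prime ∧ q ≤ Y) :
    (Phi n Pr a : ℝ) * (Pr.card : ℝ) ^ f ≤ (Pr.card : ℝ) ^ n *
      (4 ^ n * ((f.factorial * (Y ^ f / a + 1) : ℕ) : ℝ) +
        2 ^ f * (7 / 2) ^ n * (Pr.card : ℝ) ^ f) := by
  classical
  set P : ℝ := (Pr.card : ℝ) with hP
  have hP0 : 0 ≤ P := by positivity
  set M : ℝ := ((f.factorial * (Y ^ f / a + 1) : ℕ) : ℝ) with hM
  have hM0 : 0 ≤ M := by positivity
  have hterm : ∀ z : Finset (Fin n) × Finset (Fin n),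
      (((Fintype.piFinset fun _ : Fin n => Pr).filter fun p =>
        (∀ j, (p j).Coprime a) ∧ pw p z.1 ≡ pw p z.2 [MOD a]).card : ℝ) * P ^ f ≤
      P ^ n * M + (if (z.1 \ z.2).card < f then P ^ n * P ^ f else 0) := by
    intro z
    by_cases hz : (z.1 \ z.2).card < f
    · rw [if_pos hz]
      have h1 : (((Fintype.piFinset fun _ : Fin n => Pr).filter fun p =>
        (∀ j, (p j).Coprime a) ∧ pw p z.1 ≡ pw p z.2 [MOD a]).card : ℝ) ≤ P ^ n := by
        have h2 := Finset.card_filter_le (Fintype.piFinset fun _ : Fin n => Pr) (fun p =>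
          (∀ j, (p j).Coprime a) ∧ pw p z.1 ≡ pw p z.2 [MOD a])
        have h3 : (Fintype.piFinset fun _ : Fin n => Pr).card = Pr.card ^ n := by
          rw [Fintype.card_piFinset]
          simp
        rw [h3] at h2
        rw [hP]
        exact_mod_cast h2
      have h4 : 0 ≤ P ^ n * M := by positivity
      have h5 : (0 : ℝ) ≤ P ^ f := by positivity
      nlinarith
    · rw [if_neg hz, add_zero]
      push Not at hz
      obtain ⟨F, hF1, hF2⟩ := Finset.exists_subset_card_eq hz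
      have h := count_pair (a := a) hPr z.1 z.2 F hF1
      rw [hF2] at h
      rw [hP, hM]
      exact_mod_cast h
  have hsum : ∑ z : Finset (Fin n) × Finset (Fin n),
      (if (z.1 \ z.2).card < f then P ^ n * P ^ f else 0) ≤
        2 ^ f * (7 / 2) ^ n * (P ^ n * P ^ f) := by
    rw [← Finset.sum_filter, Finset.sum_const, nsmul_eq_mul]
    have h := card_bad n f
    have h5 : (0 : ℝ) ≤ P ^ n * P ^ f := by positivity
    exact mul_le_mul_of_nonneg_right h h5
  have hcard : ((Finset.univ : Finset (Finset (Fin n) × Finset (Fin n))).card : ℝ) = 4 ^ n := by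
    rw [Finset.card_univ, Fintype.card_prod, Fintype.card_finset, Fintype.card_fin]
    push_cast
    rw [← mul_pow]
    norm_num
  calc (Phi n Pr a : ℝ) * P ^ f
      = ∑ z : Finset (Fin n) × Finset (Fin n),
          (((Fintype.piFinset fun _ : Fin n => Pr).filter fun p =>
            (∀ j, (p j).Coprime a) ∧ pw p z.1 ≡ pw p z.2 [MOD a]).card : ℝ) * P ^ f := by
        rw [Phi_eq]
        push_cast
        rw [Finset.sum_mul]
    _ ≤ ∑ z : Finset (Fin n) × Finset (Fin n), (P ^ n * M +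
          (if (z.1 \ z.2).card < f then P ^ n * P ^ f else 0)) :=
        Finset.sum_le_sum fun z _ => hterm z
    _ = 4 ^ n * (P ^ n * M) + ∑ z : Finset (Fin n) × Finset (Fin n),
          (if (z.1 \ z.2).card < f then P ^ n * P ^ f else 0) := by
        rw [Finset.sum_add_distrib, Finset.sum_const, nsmul_eq_mul, hcard]
    _ ≤ 4 ^ n * (P ^ n * M) + 2 ^ f * (7 / 2) ^ n * (P ^ n * P ^ f) := by gcongr
    _ = P ^ n * (4 ^ n * M + 2 ^ f * (7 / 2) ^ n * P ^ f) := by ring

/-- The clean form of the first moment bound. -/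
theorem moment_bound {n : ℕ} {Pr : Finset ℕ} {Y a f ℓ : ℕ}
    (hPr : ∀ q ∈ Pr, q.Prime ∧ q ≤ Y) (hne : Pr.Nonempty) (hY : Y ≤ ℓ * Pr.card)
    (ha : 0 < a) (haY : a ≤ Y ^ f) (hℓ : 1 ≤ ℓ)
    (h2 : (2 : ℝ) ^ f * (7 / 8) ^ n * a ≤ 1) (hK : (f.factorial * ℓ ^ f) ^ 8 ≤ a) :
    (a : ℝ) ^ 7 * (Phi n Pr a : ℝ) ^ 8 ≤ 3 ^ 8 * ((Pr.card : ℝ) ^ n * 4 ^ n) ^ 8 := by
  set P : ℝ := (Pr.card : ℝ) with hP
  have hPpos : 0 < P := by
    rw [hP]
    exact_mod_cast Finset.card_pos.2 hne
  have haQ : (0 : ℝ) < a := by exact_mod_cast ha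
  set K : ℝ := (f.factorial : ℝ) * (ℓ : ℝ) ^ f with hKdef
  have hK1 : 1 ≤ K := by
    have : 1 ≤ f.factorial * ℓ ^ f := Nat.mul_pos f.factorial_pos (by positivity)
    rw [hKdef]
    exact_mod_cast this
  have hK8 : K ^ 8 ≤ a := by
    rw [hKdef]
    exact_mod_cast hK
  have hraw := moment_raw (n := n) (a := a) f hPr
  -- the main term
  have hYP : (Y : ℝ) ≤ ℓ * P := by
    rw [hP]
    exact_mod_cast hY
  have hM : ((f.factorial * (Y ^ f / a + 1) : ℕ) : ℝ) ≤ 2 * K * P ^ f / a := by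
    push_cast
    have h1 : (((Y ^ f / a : ℕ) : ℝ)) ≤ (Y : ℝ) ^ f / a := by
      have := @Nat.cast_div_le ℝ _ _ _ (Y ^ f) a
      push_cast at this
      exact this
    have h3 : (1 : ℝ) ≤ (Y : ℝ) ^ f / a := by
      rw [le_div_iff₀ haQ, one_mul]
      exact_mod_cast haY
    have h4 : (Y : ℝ) ^ f ≤ ((ℓ : ℝ) * P) ^ f := by gcongr
    have h5 : ((Y ^ f / a : ℕ) : ℝ) + 1 ≤ 2 * ((Y : ℝ) ^ f / a) := by linarith
    have h6 : (f.factorial : ℝ) * (((Y ^ f / a : ℕ) : ℝ) + 1) ≤
        (f.factorial : ℝ) * (2 * (((ℓ : ℝ) * P) ^ f / a)) := by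
      gcongr
      refine h5.trans ?_
      gcongr
    refine h6.trans (le_of_eq ?_)
    rw [hKdef, mul_pow]
    field_simp
  set W : ℝ := P ^ n * 4 ^ n with hW
  have hWpos : 0 < W := by positivity
  have hPhi : (Phi n Pr a : ℝ) ≤ W * (3 * K / a) := by
    have h1 : (Phi n Pr a : ℝ) * P ^ f ≤ W * (3 * K / a) * P ^ f := by
      refine hraw.trans ?_
      have h7 : P ^ n * (4 ^ n * (2 * K * P ^ f / a) + 2 ^ f * (7 / 2) ^ n * P ^ f)
          ≤ W * (3 * K / a) * P ^ f := by
        have h8 : (2 : ℝ) ^ f * (7 / 2) ^ n ≤ 4 ^ n / a := by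
          rw [le_div_iff₀ haQ]
          have h9 : (7 / 2 : ℝ) ^ n = 4 ^ n * (7 / 8) ^ n := by
            rw [← mul_pow]
            norm_num
          rw [h9]
          have h10 : (0 : ℝ) < 4 ^ n := by positivity
          calc (2 : ℝ) ^ f * (4 ^ n * (7 / 8) ^ n) * a
              = 4 ^ n * ((2 : ℝ) ^ f * (7 / 8) ^ n * a) := by ring
            _ ≤ 4 ^ n * 1 := by gcongr
            _ = 4 ^ n := by ring
        have h11 : (4 : ℝ) ^ n * (2 * K * P ^ f / a) + 2 ^ f * (7 / 2) ^ n * P ^ f ≤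
            4 ^ n * (3 * K / a) * P ^ f := by
          have h12 : (2 : ℝ) ^ f * (7 / 2) ^ n * P ^ f ≤ 4 ^ n / a * P ^ f := by gcongr
          have h13 : (4 : ℝ) ^ n / a * P ^ f ≤ 4 ^ n * (K / a) * P ^ f := by
            have h14 : (4 : ℝ) ^ n / a ≤ 4 ^ n * (K / a) := by
              rw [mul_div_assoc']
              gcongr
              nlinarith [pow_pos (show (0 : ℝ) < 4 by norm_num) n]
            gcongr
          calc (4 : ℝ) ^ n * (2 * K * P ^ f / a) + 2 ^ f * (7 / 2) ^ n * P ^ f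
              ≤ (4 : ℝ) ^ n * (2 * K * P ^ f / a) + 4 ^ n * (K / a) * P ^ f := by linarith
            _ = 4 ^ n * (3 * K / a) * P ^ f := by
              field_simp
              ring
        calc P ^ n * (4 ^ n * (2 * K * P ^ f / a) + 2 ^ f * (7 / 2) ^ n * P ^ f)
            ≤ P ^ n * (4 ^ n * (3 * K / a) * P ^ f) := by gcongr
          _ = W * (3 * K / a) * P ^ f := by
            rw [hW]
            ring
      refine le_trans ?_ h7
      gcongr
    exact le_of_mul_le_mul_right h1 (by positivity)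
  have hPhi0 : (0 : ℝ) ≤ Phi n Pr a := by positivity
  calc (a : ℝ) ^ 7 * (Phi n Pr a : ℝ) ^ 8 ≤ (a : ℝ) ^ 7 * (W * (3 * K / a)) ^ 8 := by gcongr
    _ = 3 ^ 8 * W ^ 8 * (K ^ 8 / a) := by
      field_simp
    _ ≤ 3 ^ 8 * W ^ 8 * 1 := by
      have : K ^ 8 / a ≤ 1 := by
        rw [div_le_one haQ]
        exact hK8
      gcongr
    _ = 3 ^ 8 * W ^ 8 := by ring

/-- The choice of the eight tuples by averaging. -/
theorem exists_families {n : ℕ} {Pr : Finset ℕ} {A₂ X : ℕ} (hne : Pr.Nonempty)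
    (hA₂ : 2 * 3 ^ 8 + 1 ≤ A₂)
    (hΦ : ∀ a ∈ Finset.Icc A₂ X,
      (a : ℝ) ^ 7 * (Phi n Pr a : ℝ) ^ 8 ≤ 3 ^ 8 * ((Pr.card : ℝ) ^ n * 4 ^ n) ^ 8) :
    ∃ P : Fin 8 → Fin n → ℕ, (∀ i j, P i j ∈ Pr) ∧ ∀ a ∈ Finset.Icc A₂ X,
      (∀ i j, (P i j).Coprime a) → (a : ℝ) ^ 5 * ∏ i, (coll (P i) a : ℝ) ≤ ((4 : ℝ) ^ n) ^ 8 := by
  classical
  set Ω := Fintype.piFinset (fun _ : Fin n => Pr) with hΩ
  set Ξ := Fintype.piFinset (fun _ : Fin 8 => Ω) with hΞ
  set I := Finset.Icc A₂ X with hI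
  set F : (Fin 8 → Fin n → ℕ) → ℝ := fun P => ∑ a ∈ I, (a : ℝ) ^ 5 * ∏ i, (gg (P i) a : ℝ) with hF
  have hΩne : Ω.Nonempty := Fintype.piFinset_nonempty.2 fun _ => hne
  have hΞne : Ξ.Nonempty := Fintype.piFinset_nonempty.2 fun _ => hΩne
  have hΩc : (Ω.card : ℝ) = (Pr.card : ℝ) ^ n := by
    rw [hΩ, Fintype.card_piFinset]
    simp
  have hΞc : (Ξ.card : ℝ) = ((Pr.card : ℝ) ^ n) ^ 8 := by
    rw [hΞ, Fintype.card_piFinset]
    simp [hΩc]
  have hsumF : ∑ P ∈ Ξ, F P = ∑ a ∈ I, (a : ℝ) ^ 5 * (Phi n Pr a : ℝ) ^ 8 := by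
    rw [hF]
    simp only
    rw [Finset.sum_comm]
    refine Finset.sum_congr rfl fun a _ => ?_
    rw [← Finset.mul_sum]
    congr 1
    have h := Finset.prod_univ_sum (fun _ : Fin 8 => Ω) (fun _ p => (gg p a : ℝ))
    rw [← hΞ] at h
    rw [← h]
    simp [Phi, hΩ]
  have hP0 : (0 : ℝ) < (Pr.card : ℝ) := by exact_mod_cast Finset.card_pos.2 hne
  set W : ℝ := ((Pr.card : ℝ) ^ n * 4 ^ n) ^ 8 with hW
  have hW0 : 0 < W := by positivity
  have hterm : ∀ a ∈ I, (a : ℝ) ^ 5 * (Phi n Pr a : ℝ) ^ 8 ≤ 3 ^ 8 * W * ((a : ℝ) ^ 2)⁻¹ := by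
    intro a ha
    have ha1 := (Finset.mem_Icc.1 ha).1
    have ha0 : (0 : ℝ) < a := by
      have : 0 < a := by omega
      exact_mod_cast this
    have h := hΦ a ha
    rw [← div_eq_mul_inv, le_div_iff₀ (by positivity)]
    calc (a : ℝ) ^ 5 * (Phi n Pr a : ℝ) ^ 8 * (a : ℝ) ^ 2
        = (a : ℝ) ^ 7 * (Phi n Pr a : ℝ) ^ 8 := by ring
      _ ≤ 3 ^ 8 * W := h
  have hA₂' : A₂ - 1 ≠ 0 := by
    have : 13123 ≤ A₂ := by norm_num at hA₂; omega
    omega
  have hinv : ∑ a ∈ I, ((a : ℝ) ^ 2)⁻¹ ≤ 1 / 3 ^ 8 := by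
    have hIeq : I = Finset.Ioc (A₂ - 1) X := by
      ext x
      simp only [hI, Finset.mem_Icc, Finset.mem_Ioc]
      have : 13123 ≤ A₂ := by norm_num at hA₂; omega
      omega
    by_cases hX : A₂ - 1 ≤ X
    · rw [hIeq]
      have h := sum_Ioc_inv_sq_le_sub (α := ℝ) hA₂' hX
      have h1 : ((X : ℝ))⁻¹ ≥ 0 := by positivity
      have h2 : ((A₂ - 1 : ℕ) : ℝ)⁻¹ ≤ 1 / 3 ^ 8 := by
        rw [one_div]
        apply inv_anti₀ (by norm_num)
        have : 3 ^ 8 ≤ A₂ - 1 := by omega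
        exact_mod_cast this
      linarith
    · have : I = ∅ := by
        rw [hIeq]
        exact Finset.Ioc_eq_empty_of_le (by omega)
      rw [this]
      norm_num
  have hsum : ∑ P ∈ Ξ, F P ≤ ∑ _P ∈ Ξ, ((4 : ℝ) ^ n) ^ 8 := by
    rw [hsumF, Finset.sum_const, nsmul_eq_mul, hΞc]
    calc ∑ a ∈ I, (a : ℝ) ^ 5 * (Phi n Pr a : ℝ) ^ 8
        ≤ ∑ a ∈ I, 3 ^ 8 * W * ((a : ℝ) ^ 2)⁻¹ := Finset.sum_le_sum hterm
      _ = 3 ^ 8 * W * ∑ a ∈ I, ((a : ℝ) ^ 2)⁻¹ := by rw [Finset.mul_sum]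
      _ ≤ 3 ^ 8 * W * (1 / 3 ^ 8) := by gcongr
      _ = W := by field_simp
      _ = ((Pr.card : ℝ) ^ n) ^ 8 * ((4 : ℝ) ^ n) ^ 8 := by
        rw [hW, mul_pow]
  obtain ⟨P, hP, hPF⟩ := Finset.exists_le_of_sum_le hΞne hsum
  have hPmem : ∀ i j, P i j ∈ Pr := fun i j =>
    Fintype.mem_piFinset.1 (Fintype.mem_piFinset.1 hP i) j
  refine ⟨P, hPmem, ?_⟩
  intro a ha hcop
  have hsingle : (a : ℝ) ^ 5 * ∏ i, (gg (P i) a : ℝ) ≤ F P :=
    Finset.single_le_sum (f := fun a : ℕ => (a : ℝ) ^ 5 * ∏ i, (gg (P i) a : ℝ))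
      (fun _ _ => by positivity) ha
  have hgg : ∀ i, gg (P i) a = coll (P i) a := fun i => by
    unfold gg
    rw [if_pos (hcop i)]
  simp only [hgg] at hsingle
  exact hsingle.trans hPF

end Vale.Agent.Lib.P012d
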