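import Mathlib
import Vale.Agent.Lib.P012d.Moment

/-!
Fourier analysis on `ZMod R`: extraction of a solution from a nonvanishing exponential sum,
the bilinear bound and the geometric sum bound.
-/

namespace Vale.Agent.Lib.P012d

open Finset ZMod

section basics

variable {R : ℕ} [NeZero R]

/-- The exponential sum of a multiset of integers. -/
noncomputable def chi (t : ZMod R) (D : Multiset ℕ) : ℂ :=
  (D.map fun x : ℕ => stdAddChar (t * (x : ZMod R))).sum

lemma chi_cons (t : ZMod R) (x : ℕ) (D : Multiset ℕ) :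
    chi t (x ::ₘ D) = stdAddChar (t * (x : ZMod R)) + chi t D := by
  simp [chi]

lemma chi_zero (D : Multiset ℕ) : chi (0 : ZMod R) D = D.card := by
  simp [chi]

lemma norm_chi_le (t : ZMod R) (D : Multiset ℕ) : ‖chi t D‖ ≤ D.card := by
  induction D using Multiset.induction_on with
  | empty => simp [chi]
  | cons x D ih =>
    rw [chi_cons, Multiset.card_cons]
    push_cast
    refine (norm_add_le _ _).trans ?_
    rw [AddChar.norm_apply]
    linarith

lemma exists_mem_of_sum_ne_zero (G : ZMod R → ℂ) (c : ℕ) :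
    ∀ D : Multiset ℕ,
      (∑ t : ZMod R, stdAddChar (t * (c : ZMod R)) * (chi t D * G t)) ≠ 0 →
      ∃ x ∈ D, (∑ t : ZMod R, stdAddChar (t * ((x + c : ℕ) : ZMod R)) * G t) ≠ 0 := by
  intro D
  induction D using Multiset.induction_on with
  | empty =>
    intro h
    exact absurd (by simp [chi]) h
  | cons x D ih =>
    intro h
    have hsplit : (∑ t : ZMod R, stdAddChar (t * (c : ZMod R)) * (chi t (x ::ₘ D) * G t))
        = (∑ t : ZMod R, stdAddChar (t * ((x + c : ℕ) : ZMod R)) * G t)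
          + ∑ t : ZMod R, stdAddChar (t * (c : ZMod R)) * (chi t D * G t) := by
      rw [← Finset.sum_add_distrib]
      refine Finset.sum_congr rfl fun t _ => ?_
      rw [chi_cons]
      have : stdAddChar (t * ((x + c : ℕ) : ZMod R))
          = stdAddChar (t * (x : ZMod R)) * stdAddChar (t * (c : ZMod R)) := by
        rw [← AddChar.map_add_eq_mul]
        congr 1
        push_cast
        ring
      rw [this]
      ring
    rw [hsplit] at h
    by_cases h1 : (∑ t : ZMod R, stdAddChar (t * ((x + c : ℕ) : ZMod R)) * G t) = 0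
    · rw [h1, zero_add] at h
      obtain ⟨y, hy, hy2⟩ := ih h
      exact ⟨y, Multiset.mem_cons_of_mem hy, hy2⟩
    · exact ⟨x, Multiset.mem_cons_self _ _, h1⟩

/-- Extraction of a solution from a nonvanishing exponential sum. -/
theorem exists_of_sum_ne_zero :
    ∀ (Ls : List (Multiset ℕ)) (c : ℕ),
      (∑ t : ZMod R, stdAddChar (t * (c : ZMod R)) * (Ls.map (chi t)).prod) ≠ 0 →
      ∃ d : List ℕ, List.Forall₂ (· ∈ ·) d Ls ∧ R ∣ d.sum + c := by
  intro Ls
  induction Ls with
  | nil =>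
    intro c h
    refine ⟨[], List.Forall₂.nil, ?_⟩
    simp only [List.map_nil, List.prod_nil, mul_one] at h
    simp only [List.sum_nil, zero_add]
    have h2 := AddChar.sum_mulShift (c : ZMod R) (isPrimitive_stdAddChar R)
    rw [h2] at h
    by_cases hc : (c : ZMod R) = 0
    · exact (ZMod.natCast_eq_zero_iff c R).1 hc
    · simp [hc] at h
  | cons D Ls ih =>
    intro c h
    simp only [List.map_cons, List.prod_cons] at h
    obtain ⟨x, hx, hx2⟩ := exists_mem_of_sum_ne_zero (fun t => (Ls.map (chi t)).prod) c D h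
    obtain ⟨d, hd1, hd2⟩ := ih (x + c) hx2
    refine ⟨x :: d, List.Forall₂.cons hx hd1, ?_⟩
    rw [List.sum_cons]
    have : x + d.sum + c = d.sum + (x + c) := by ring
    rw [this]
    exact hd2

lemma prod_chi_zero (Ls : List (Multiset ℕ)) :
    (Ls.map (chi (0 : ZMod R))).prod = (((Ls.map Multiset.card).prod : ℕ) : ℂ) := by
  induction Ls with
  | nil => simp
  | cons D Ls ih =>
    simp only [List.map_cons, List.prod_cons, chi_zero]
    rw [ih]
    push_cast
    ring

/-- A sum dominated by the term `t = 0` does not vanish. -/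
theorem sum_ne_zero_of_dominant (Ls : List (Multiset ℕ))
    (hdom : ∑ t ∈ (univ : Finset (ZMod R)).erase 0, ‖(Ls.map (chi t)).prod‖
      < ((Ls.map Multiset.card).prod : ℝ)) :
    (∑ t : ZMod R, stdAddChar (t * ((0 : ℕ) : ZMod R)) * (Ls.map (chi t)).prod) ≠ 0 := by
  intro h0
  have h1 : ∀ t : ZMod R, stdAddChar (t * ((0 : ℕ) : ZMod R)) * (Ls.map (chi t)).prod
      = (Ls.map (chi t)).prod := by
    intro t
    simp
  simp_rw [h1] at h0
  rw [← Finset.add_sum_erase _ _ (Finset.mem_univ (0 : ZMod R))] at h0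
  rw [prod_chi_zero] at h0
  have h3 : ((Ls.map Multiset.card).prod : ℝ) ≤
      ∑ t ∈ (univ : Finset (ZMod R)).erase 0, ‖(Ls.map (chi t)).prod‖ := by
    have h4 : (((Ls.map Multiset.card).prod : ℕ) : ℂ)
        = - ∑ t ∈ (univ : Finset (ZMod R)).erase 0, (Ls.map (chi t)).prod := by
      exact eq_neg_of_add_eq_zero_left h0
    have h5 : ‖(((Ls.map Multiset.card).prod : ℕ) : ℂ)‖ = ((Ls.map Multiset.card).prod : ℝ) :=
      Complex.norm_natCast _
    rw [← h5, h4, norm_neg]
    exact norm_sum_le _ _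
  linarith

/-- The additive order and congruences. -/
lemma modEq_of_mul_eq {t : ZMod R} {u v : ℕ} (h : t * (u : ZMod R) = t * (v : ZMod R)) :
    u ≡ v [MOD addOrderOf t] := by
  have h1 : u • t = v • t := by
    rw [nsmul_eq_mul, nsmul_eq_mul, mul_comm, h, mul_comm]
  exact nsmul_eq_nsmul_iff_modEq.1 h1

lemma mul_order_eq_zero (t : ZMod R) : t * ((addOrderOf t : ℕ) : ZMod R) = 0 := by
  rw [mul_comm, ← nsmul_eq_mul, addOrderOf_nsmul_eq_zero]

lemma order_dvd (t : ZMod R) : addOrderOf t ∣ R := by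
  have h := addOrderOf_dvd_card (x := t)
  rwa [ZMod.card] at h

lemma order_pos (t : ZMod R) : 0 < addOrderOf t := by
  have hR : 0 < R := Nat.pos_of_ne_zero (NeZero.ne R)
  exact Nat.pos_of_dvd_of_pos (order_dvd t) hR

lemma two_le_order {t : ZMod R} (ht : t ≠ 0) : 2 ≤ addOrderOf t := by
  have h1 := order_pos t
  have h2 : addOrderOf t ≠ 1 := fun h => ht (AddMonoid.addOrderOf_eq_one_iff.1 h)
  omega

/-- The number of elements of a given additive order. -/
lemma card_order_le (a : ℕ) (ha : 0 < a) :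
    ((univ : Finset (ZMod R)).filter fun t => addOrderOf t = a).card ≤ a := by
  classical
  refine le_trans (Finset.card_le_card ?_) (IsAddCyclic.card_nsmul_eq_zero_le (α := ZMod R) ha)
  intro t ht
  simp only [Finset.mem_filter, Finset.mem_univ, true_and] at ht ⊢
  rw [← ht]
  exact addOrderOf_nsmul_eq_zero t

/-- The sum over an interval of a unimodular periodic sequence. -/
lemma norm_geom_le {ζ : ℂ} {a : ℕ} (hζ : ‖ζ‖ = 1) (h1 : ζ ≠ 1) (ha : ζ ^ a = 1) (ha0 : 0 < a) :
    ∀ Z : ℕ, ‖∑ m ∈ range Z, ζ ^ (m + 1)‖ ≤ a := by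
  intro Z
  induction Z using Nat.strong_induction_on with
  | _ Z ih =>
    by_cases hZ : Z < a
    · refine (norm_sum_le _ _).trans ?_
      have : ∀ m ∈ range Z, ‖ζ ^ (m + 1)‖ = 1 := by
        intro m _
        rw [norm_pow, hζ, one_pow]
      rw [Finset.sum_congr rfl this]
      simp
      exact_mod_cast hZ.le
    · push Not at hZ
      have h2 : Z = a + (Z - a) := by omega
      have h3 : ∑ m ∈ range a, ζ ^ (m + 1) = 0 := by
        have h4 := mul_neg_geom_sum ζ a
        rw [ha, sub_self] at h4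
        have h5 : ∑ i ∈ range a, ζ ^ i = 0 := by
          rcases mul_eq_zero.1 h4 with h6 | h6
          · exact absurd (sub_eq_zero.1 h6).symm h1
          · exact h6
        simp_rw [pow_succ]
        rw [← Finset.sum_mul, h5, zero_mul]
      rw [h2, Finset.sum_range_add, h3, zero_add]
      have h4 : ∀ m ∈ range (Z - a), ζ ^ (a + m + 1) = ζ ^ (m + 1) := by
        intro m _
        rw [add_assoc, pow_add, ha, one_mul]
      rw [Finset.sum_congr rfl h4]
      exact ih (Z - a) (by omega)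

/-- The exponential sum over an initial segment of the integers. -/
lemma norm_chi_range (t : ZMod R) (ht : t ≠ 0) (Z : ℕ) :
    ‖∑ m ∈ range Z, (stdAddChar (t * ((m + 1 : ℕ) : ZMod R)) : ℂ)‖ ≤ addOrderOf t := by
  have h0 : ∀ m : ℕ, (stdAddChar (t * ((m + 1 : ℕ) : ZMod R)) : ℂ)
      = (stdAddChar t : ℂ) ^ (m + 1) := by
    intro m
    rw [← AddChar.map_nsmul_eq_pow, nsmul_eq_mul, mul_comm]
  simp_rw [h0]
  refine norm_geom_le (AddChar.norm_apply _ _) ?_ ?_ (order_pos t) Z
  · intro h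
    apply ht
    apply injective_stdAddChar
    rw [h, AddChar.map_zero_eq_one]
  · rw [← AddChar.map_nsmul_eq_pow, addOrderOf_nsmul_eq_zero, AddChar.map_zero_eq_one]

end basics

section bilinear

variable {q : ℕ} [NeZero q] {ι κ : Type*} [DecidableEq ι] [DecidableEq κ]

/-- `t(v) = ∑_{j ∈ Y} ψ(v y_j)`. -/
noncomputable def tt (Y : Finset κ) (y : κ → ZMod q) (v : ZMod q) : ℂ :=
  ∑ j ∈ Y, stdAddChar (v * y j)

/-- The bilinear sum `∑_{i ∈ X} ∑_{j ∈ Y} ψ(b x_i y_j)`. -/
noncomputable def bil (X : Finset ι) (Y : Finset κ) (x : ι → ZMod q) (y : κ → ZMod q)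
    (b : ZMod q) : ℂ :=
  ∑ i ∈ X, tt Y y (b * x i)

/-- The number of pairs of indices with `b x = b x'`. -/
def HH {α : Type*} [DecidableEq α] (X : Finset α) (x : α → ZMod q) (b : ZMod q) : ℕ :=
  ((X ×ˢ X).filter fun z => b * x z.1 = b * x z.2).card

lemma norm_tt_sq_eq (Y : Finset κ) (y : κ → ZMod q) (v : ZMod q) :
    ((‖tt Y y v‖ ^ 2 : ℝ) : ℂ) =
      ∑ z ∈ Y ×ˢ Y, stdAddChar (v * (y z.1 - y z.2)) := by
  have h1 : ((‖tt Y y v‖ ^ 2 : ℝ) : ℂ) = tt Y y v * (starRingEnd ℂ) (tt Y y v) := by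
    rw [Complex.mul_conj, Complex.normSq_eq_norm_sq]
  rw [h1, tt, map_sum, Finset.sum_mul_sum, Finset.sum_product]
  refine Finset.sum_congr rfl fun x _ => Finset.sum_congr rfl fun j _ => ?_
  rw [← AddChar.map_neg_eq_conj, ← AddChar.map_add_eq_mul]
  congr 1
  ring

lemma sum_norm_tt_sq (Y : Finset κ) (y : κ → ZMod q) (b : ZMod q) :
    ∑ u : ZMod q, ‖tt Y y (b * u)‖ ^ 2 = (q : ℝ) * HH Y y b := by
  have h : ((∑ u : ZMod q, ‖tt Y y (b * u)‖ ^ 2 : ℝ) : ℂ) = ((q : ℝ) * HH Y y b : ℝ) := by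
    push_cast
    have h2 : ∀ u : ZMod q, ((‖tt Y y (b * u)‖ : ℂ)) ^ 2 =
        ∑ z ∈ Y ×ˢ Y, stdAddChar (u * (b * (y z.1 - y z.2))) := by
      intro u
      have := norm_tt_sq_eq Y y (b * u)
      push_cast at this
      rw [this]
      refine Finset.sum_congr rfl fun z _ => ?_
      congr 1
      ring
    simp_rw [h2]
    rw [Finset.sum_comm]
    simp_rw [AddChar.sum_mulShift _ (isPrimitive_stdAddChar q)]
    rw [HH, Finset.card_filter]
    push_cast
    rw [Finset.mul_sum]
    refine Finset.sum_congr rfl fun z _ => ?_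
    simp only [ZMod.card, mul_sub, sub_eq_zero]
    split_ifs <;> simp
  exact_mod_cast h

/-- The bilinear bound: if `K` has `h` elements annihilated by `b` then
`h ‖F(b)‖² ≤ q H_X H_Y`. -/
lemma bil_bound (X : Finset ι) (Y : Finset κ) (x : ι → ZMod q) (y : κ → ZMod q)
    (b : ZMod q) (K : Finset (ZMod q)) (hK : ∀ k ∈ K, b * k = 0) :
    (K.card : ℝ) * ‖bil X Y x y b‖ ^ 2 ≤ (q : ℝ) * HH X x b * HH Y y b := by
  classical
  -- group the indices by the value of `b x`
  set V := X.image (fun i => b * x i) with hV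
  set n : ZMod q → ℕ := fun v => (X.filter fun i => b * x i = v).card with hn
  have hF : bil X Y x y b = ∑ v ∈ V, (n v : ℂ) * tt Y y v := by
    rw [bil]
    have := Finset.sum_comp (s := X) (fun v => tt Y y v) (fun i => b * x i)
    rw [this]
    refine Finset.sum_congr rfl fun v _ => ?_
    rw [nsmul_eq_mul]
  have hHX : ∑ v ∈ V, ((n v : ℝ)) ^ 2 = HH X x b := by
    have h1 : (HH X x b) = ∑ i ∈ X, n (b * x i) := by
      rw [HH, Finset.card_filter, Finset.sum_product]
      refine Finset.sum_congr rfl fun i _ => ?_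
      rw [hn]
      simp only
      rw [Finset.card_filter]
      refine Finset.sum_congr rfl fun j _ => ?_
      by_cases h : b * x i = b * x j
      · simp [h]
      · have h' : ¬ b * x j = b * x i := fun e => h e.symm
        simp [h, h']
    have h2 := Finset.sum_comp (s := X) (fun v => n v) (fun i => b * x i)
    rw [h1, h2]
    push_cast
    refine Finset.sum_congr rfl fun v _ => ?_
    rw [nsmul_eq_mul]
    push_cast
    ring
  -- Cauchy-Schwarz
  have hCS : ‖bil X Y x y b‖ ^ 2 ≤ (HH X x b : ℝ) * ∑ v ∈ V, ‖tt Y y v‖ ^ 2 := by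
    have h1 : ‖bil X Y x y b‖ ≤ ∑ v ∈ V, (n v : ℝ) * ‖tt Y y v‖ := by
      rw [hF]
      refine (norm_sum_le _ _).trans (le_of_eq ?_)
      refine Finset.sum_congr rfl fun v _ => ?_
      simp
    have h2 := Finset.sum_mul_sq_le_sq_mul_sq V (fun v => (n v : ℝ)) (fun v => ‖tt Y y v‖)
    rw [hHX] at h2
    calc ‖bil X Y x y b‖ ^ 2 ≤ (∑ v ∈ V, (n v : ℝ) * ‖tt Y y v‖) ^ 2 := by
          apply pow_le_pow_left₀ (norm_nonneg _) h1
      _ ≤ _ := h2
  -- second moment on the image
  have hSM : (K.card : ℝ) * ∑ v ∈ V, ‖tt Y y v‖ ^ 2 ≤ (q : ℝ) * HH Y y b := by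
    rw [← sum_norm_tt_sq Y y b]
    -- each `v ∈ V` has at least `K.card` preimages
    have hfib : ∀ v ∈ V, K.card ≤ ((univ : Finset (ZMod q)).filter fun u => b * u = v).card := by
      intro v hv
      obtain ⟨i, _, rfl⟩ := Finset.mem_image.1 hv
      refine Finset.card_le_card_of_injOn (fun k => k + x i) ?_ ?_
      · intro k hk
        simp only [coe_filter, mem_univ, true_and, Set.mem_ofPred_eq]
        rw [mul_add, hK k hk, zero_add]
      · intro k _ k' _ h
        exact add_right_cancel h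
    have h3 : ∑ v ∈ V, (K.card : ℝ) * ‖tt Y y v‖ ^ 2 ≤
        ∑ v ∈ V, ∑ u ∈ (univ : Finset (ZMod q)).filter (fun u => b * u = v),
          ‖tt Y y (b * u)‖ ^ 2 := by
      refine Finset.sum_le_sum fun v hv => ?_
      have : ∑ u ∈ (univ : Finset (ZMod q)).filter (fun u => b * u = v), ‖tt Y y (b * u)‖ ^ 2 =
          (((univ : Finset (ZMod q)).filter fun u => b * u = v).card : ℝ) * ‖tt Y y v‖ ^ 2 := by
        rw [← nsmul_eq_mul, ← Finset.sum_const]
        refine Finset.sum_congr rfl fun u hu => ?_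
        rw [(Finset.mem_filter.1 hu).2]
      rw [this]
      have := hfib v hv
      gcongr
    rw [Finset.mul_sum]
    refine h3.trans ?_
    -- disjoint fibres
    rw [← Finset.sum_biUnion]
    · refine Finset.sum_le_sum_of_subset_of_nonneg (Finset.subset_univ _) fun _ _ _ => by positivity
    · intro v _ v' _ hvv'
      refine Finset.disjoint_left.2 fun u hu hu' => hvv' ?_
      rw [← (Finset.mem_filter.1 hu).2, (Finset.mem_filter.1 hu').2]
  have hK0 : (0 : ℝ) ≤ K.card := by positivity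
  have hX0 : (0 : ℝ) ≤ HH X x b := by positivity
  calc (K.card : ℝ) * ‖bil X Y x y b‖ ^ 2
      ≤ (K.card : ℝ) * ((HH X x b : ℝ) * ∑ v ∈ V, ‖tt Y y v‖ ^ 2) := by gcongr
    _ = (HH X x b : ℝ) * ((K.card : ℝ) * ∑ v ∈ V, ‖tt Y y v‖ ^ 2) := by ring
    _ ≤ (HH X x b : ℝ) * ((q : ℝ) * HH Y y b) := by gcongr
    _ = (q : ℝ) * HH X x b * HH Y y b := by ring

/-- If `b r = 0` with `r ∣ q` then `‖F(b)‖² ≤ r H_X H_Y`. -/
lemma bil_bound' (X : Finset ι) (Y : Finset κ) (x : ι → ZMod q) (y : κ → ZMod q)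
    (b : ZMod q) (r : ℕ) (hr : r ∣ q) (hb : b * (r : ZMod q) = 0) :
    ‖bil X Y x y b‖ ^ 2 ≤ (r : ℝ) * HH X x b * HH Y y b := by
  classical
  obtain ⟨t, ht⟩ := hr
  have hq : 0 < q := Nat.pos_of_ne_zero (NeZero.ne q)
  have hr0 : 0 < r := Nat.pos_of_ne_zero (by rintro rfl; simp at ht; omega)
  have ht0 : 0 < t := Nat.pos_of_ne_zero (by rintro rfl; simp at ht; omega)
  set K : Finset (ZMod q) := (range t).image (fun i : ℕ => ((r * i : ℕ) : ZMod q)) with hKdef
  have hKcard : K.card = t := by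
    rw [hKdef, Finset.card_image_of_injOn, Finset.card_range]
    intro i hi j hj h
    simp only [coe_range, Set.mem_Iio] at hi hj
    have hi' : r * i < q := by rw [ht]; exact Nat.mul_lt_mul_of_pos_left hi hr0
    have hj' : r * j < q := by rw [ht]; exact Nat.mul_lt_mul_of_pos_left hj hr0
    have := (ZMod.natCast_eq_natCast_iff' _ _ _).1 h
    rw [Nat.mod_eq_of_lt hi', Nat.mod_eq_of_lt hj'] at this
    exact Nat.eq_of_mul_eq_mul_left hr0 this
  have hK : ∀ k ∈ K, b * k = 0 := by
    intro k hk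
    obtain ⟨i, _, rfl⟩ := Finset.mem_image.1 hk
    push_cast
    rw [← mul_assoc, hb, zero_mul]
  have h := bil_bound X Y x y b K hK
  rw [hKcard] at h
  have hqr : (q : ℝ) = r * t := by rw [ht]; push_cast; ring
  rw [hqr] at h
  have ht' : (0 : ℝ) < t := by exact_mod_cast ht0
  have h2 : (t : ℝ) * ‖bil X Y x y b‖ ^ 2 ≤ (t : ℝ) * ((r : ℝ) * HH X x b * HH Y y b) := by
    calc (t : ℝ) * ‖bil X Y x y b‖ ^ 2 ≤ (r : ℝ) * t * HH X x b * HH Y y b := h
      _ = _ := by ring
  exact le_of_mul_le_mul_left h2 ht'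

end bilinear

end Vale.Agent.Lib.P012d
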