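import Mathlib
import Vale.Agent.Lib.P012d.Moment
import Vale.Agent.Lib.P012d.Fourier

/-!
The covering theorem: every modulus without a prime factor in the tuples divides a sum of `27`
divisors of `N₀`.
-/

namespace Vale.Agent.Lib.P012d

open Finset ZMod

/-- The products of a subproduct of `p` and a subproduct of `q`. -/
def DD {n : ℕ} (p q : Fin n → ℕ) : Multiset ℕ :=
  (univ : Finset (Finset (Fin n) × Finset (Fin n))).val.map fun z => pw p z.1 * pw q z.2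

/-- The integers up to `Z`. -/
def TT (Z : ℕ) : Multiset ℕ := (range Z).val.map (· + 1)

/-- The list of the `27` summand sets. -/
def LL {n : ℕ} (P : Fin 8 → Fin n → ℕ) (Z : ℕ) : List (Multiset ℕ) :=
  List.replicate 6 (DD (P 0) (P 1)) ++ List.replicate 6 (DD (P 2) (P 3)) ++
    List.replicate 6 (DD (P 4) (P 5)) ++ List.replicate 6 (DD (P 6) (P 7)) ++
      List.replicate 3 (TT Z)

section

variable {R : ℕ} [NeZero R]

lemma chi_DD {n : ℕ} (p q : Fin n → ℕ) (t : ZMod R) :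
    chi t (DD p q) = bil (univ : Finset (Finset (Fin n))) (univ : Finset (Finset (Fin n)))
      (fun A => ((pw p A : ℕ) : ZMod R)) (fun B => ((pw q B : ℕ) : ZMod R)) t := by
  have h1 : chi t (DD p q) = ∑ z : Finset (Fin n) × Finset (Fin n),
      stdAddChar (t * ((pw p z.1 * pw q z.2 : ℕ) : ZMod R)) := by
    simp only [chi, DD, Multiset.map_map, Function.comp_def]
    rfl
  rw [h1, ← Finset.univ_product_univ, Finset.sum_product]
  simp only [bil, tt]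
  refine Finset.sum_congr rfl fun A _ => Finset.sum_congr rfl fun B _ => ?_
  congr 1
  push_cast
  ring

lemma chi_TT (Z : ℕ) (t : ZMod R) :
    chi t (TT Z) = ∑ m ∈ range Z, stdAddChar (t * ((m + 1 : ℕ) : ZMod R)) := by
  simp only [chi, TT, Multiset.map_map, Function.comp_def]
  rfl

lemma card_DD {n : ℕ} (p q : Fin n → ℕ) : (DD p q).card = 4 ^ n := by
  simp only [DD, Multiset.card_map]
  change (univ : Finset (Finset (Fin n) × Finset (Fin n))).card = 4 ^ n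
  rw [Finset.card_univ, Fintype.card_prod, Fintype.card_finset, Fintype.card_fin, ← mul_pow]
  norm_num

lemma card_TT (Z : ℕ) : (TT Z).card = Z := by
  simp [TT]

lemma HH_le_coll {n : ℕ} (p : Fin n → ℕ) (t : ZMod R) :
    HH (univ : Finset (Finset (Fin n))) (fun A => ((pw p A : ℕ) : ZMod R)) t
      ≤ coll p (addOrderOf t) := by
  unfold HH coll
  rw [Finset.univ_product_univ]
  refine Finset.card_le_card ?_
  intro z hz
  have h := (Finset.mem_filter.1 hz).2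
  exact Finset.mem_filter.2 ⟨Finset.mem_univ _, modEq_of_mul_eq h⟩

/-- The bilinear bound in terms of the collision counts. -/
lemma norm_chi_DD_sq {n : ℕ} (p q : Fin n → ℕ) (t : ZMod R) :
    ‖chi t (DD p q)‖ ^ 2 ≤
      (addOrderOf t : ℝ) * (coll p (addOrderOf t) : ℝ) * (coll q (addOrderOf t) : ℝ) := by
  rw [chi_DD]
  refine (bil_bound' _ _ _ _ t (addOrderOf t) (order_dvd t) (mul_order_eq_zero t)).trans ?_
  have h1 : (HH (univ : Finset (Finset (Fin n))) (fun A => ((pw p A : ℕ) : ZMod R)) t : ℝ)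
      ≤ coll p (addOrderOf t) := by exact_mod_cast HH_le_coll p t
  have h2 : (HH (univ : Finset (Finset (Fin n))) (fun A => ((pw q A : ℕ) : ZMod R)) t : ℝ)
      ≤ coll q (addOrderOf t) := by exact_mod_cast HH_le_coll q t
  gcongr

lemma prod_map_chi_LL {n : ℕ} (P : Fin 8 → Fin n → ℕ) (Z : ℕ) (t : ZMod R) :
    ((LL P Z).map (chi t)).prod =
      chi t (DD (P 0) (P 1)) ^ 6 * chi t (DD (P 2) (P 3)) ^ 6 * chi t (DD (P 4) (P 5)) ^ 6 *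
        chi t (DD (P 6) (P 7)) ^ 6 * chi t (TT Z) ^ 3 := by
  simp only [LL, List.map_append, List.map_replicate, List.prod_append, List.prod_replicate]

lemma prod_map_card_LL {n : ℕ} (P : Fin 8 → Fin n → ℕ) (Z : ℕ) :
    (((LL P Z).map Multiset.card).prod : ℕ) = ((4 ^ n) ^ 6) ^ 4 * Z ^ 3 := by
  simp only [LL, List.map_append, List.map_replicate, List.prod_append, List.prod_replicate,
    card_DD, card_TT]
  ring

/-- The weight function of the additive order. -/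
noncomputable def gw (A₂ Z a : ℕ) : ℝ :=
  if a < A₂ then (a : ℝ) ^ 3 / (Z : ℝ) ^ 3 else 1 / (a : ℝ) ^ 3

lemma gw_nonneg (A₂ Z a : ℕ) : 0 ≤ gw A₂ Z a := by
  unfold gw
  split_ifs <;> positivity

/-- The numerical heart of the positivity argument. -/
lemma real_ineq {x₀ x₁ x₂ x₃ y a Z W₀ e₀ e₁ e₂ e₃ e₄ e₅ e₆ e₇ : ℝ}
    (hx₀ : 0 ≤ x₀) (hx₁ : 0 ≤ x₁) (hx₂ : 0 ≤ x₂) (hx₃ : 0 ≤ x₃) (hy : 0 ≤ y)
    (ha : 0 < a) (hZ : 0 < Z) (hW : 0 < W₀)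
    (he₀ : 0 ≤ e₀) (he₁ : 0 ≤ e₁) (he₂ : 0 ≤ e₂) (he₃ : 0 ≤ e₃)
    (he₄ : 0 ≤ e₄) (he₅ : 0 ≤ e₅) (he₆ : 0 ≤ e₆) (he₇ : 0 ≤ e₇)
    (h₀ : x₀ ^ 2 ≤ a * e₀ * e₁) (h₁ : x₁ ^ 2 ≤ a * e₂ * e₃)
    (h₂ : x₂ ^ 2 ≤ a * e₄ * e₅) (h₃ : x₃ ^ 2 ≤ a * e₆ * e₇) (hyZ : y ≤ Z)
    (hc : a ^ 5 * (e₀ * e₁ * e₂ * e₃ * e₄ * e₅ * e₆ * e₇) ≤ W₀ ^ 8) :
    x₀ ^ 6 * x₁ ^ 6 * x₂ ^ 6 * x₃ ^ 6 * y ^ 3 ≤ (W₀ ^ 6) ^ 4 * Z ^ 3 * (1 / a ^ 3) := by
  have hprod : x₀ ^ 2 * x₁ ^ 2 * x₂ ^ 2 * x₃ ^ 2 ≤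
      (a * e₀ * e₁) * (a * e₂ * e₃) * (a * e₄ * e₅) * (a * e₆ * e₇) := by
    have h01 := mul_le_mul h₀ h₁ (by positivity) (by positivity)
    have h012 := mul_le_mul h01 h₂ (by positivity) (by positivity)
    exact mul_le_mul h012 h₃ (by positivity) (by positivity)
  have hE : (a * e₀ * e₁) * (a * e₂ * e₃) * (a * e₄ * e₅) * (a * e₆ * e₇)
      = a ^ 4 * (e₀ * e₁ * e₂ * e₃ * e₄ * e₅ * e₆ * e₇) := by ring
  rw [hE] at hprod
  have hE0 : 0 ≤ e₀ * e₁ * e₂ * e₃ * e₄ * e₅ * e₆ * e₇ := by positivity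
  generalize e₀ * e₁ * e₂ * e₃ * e₄ * e₅ * e₆ * e₇ = E at hprod hc hE0
  have h6 : x₀ ^ 6 * x₁ ^ 6 * x₂ ^ 6 * x₃ ^ 6 ≤ (a ^ 4 * E) ^ 3 := by
    have h7 : x₀ ^ 6 * x₁ ^ 6 * x₂ ^ 6 * x₃ ^ 6 = (x₀ ^ 2 * x₁ ^ 2 * x₂ ^ 2 * x₃ ^ 2) ^ 3 := by ring
    rw [h7]
    exact pow_le_pow_left₀ (by positivity) hprod 3
  have h8 : (a ^ 5 * E) ^ 3 ≤ (W₀ ^ 8) ^ 3 := pow_le_pow_left₀ (by positivity) hc 3
  have h9 : (a ^ 4 * E) ^ 3 ≤ (W₀ ^ 6) ^ 4 * (1 / a ^ 3) := by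
    rw [mul_one_div, le_div_iff₀ (by positivity)]
    calc (a ^ 4 * E) ^ 3 * a ^ 3 = (a ^ 5 * E) ^ 3 := by ring
      _ ≤ (W₀ ^ 8) ^ 3 := h8
      _ = (W₀ ^ 6) ^ 4 := by ring
  have h10 : y ^ 3 ≤ Z ^ 3 := pow_le_pow_left₀ hy hyZ 3
  calc x₀ ^ 6 * x₁ ^ 6 * x₂ ^ 6 * x₃ ^ 6 * y ^ 3
      ≤ ((W₀ ^ 6) ^ 4 * (1 / a ^ 3)) * Z ^ 3 :=
        mul_le_mul (h6.trans h9) h10 (by positivity) (by positivity)
    _ = (W₀ ^ 6) ^ 4 * Z ^ 3 * (1 / a ^ 3) := by ring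

/-- The pointwise bound of the exponential sums when the order of `t` is large. -/
lemma norm_prod_large {n A₂ X Z : ℕ} (P : Fin 8 → Fin n → ℕ) (hZ : 0 < Z)
    (hRX : R ≤ X)
    (hcop : ∀ i j, (P i j).Coprime R)
    (hcoll : ∀ a ∈ Finset.Icc A₂ X, (∀ i j, (P i j).Coprime a) →
      (a : ℝ) ^ 5 * ∏ i, (coll (P i) a : ℝ) ≤ ((4 : ℝ) ^ n) ^ 8)
    {t : ZMod R} (hlt : A₂ ≤ addOrderOf t) :
    ‖chi t (DD (P 0) (P 1))‖ ^ 6 * ‖chi t (DD (P 2) (P 3))‖ ^ 6 * ‖chi t (DD (P 4) (P 5))‖ ^ 6 *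
      ‖chi t (DD (P 6) (P 7))‖ ^ 6 * ‖chi t (TT Z)‖ ^ 3 ≤
      (((4 : ℝ) ^ n) ^ 6) ^ 4 * (Z : ℝ) ^ 3 * (1 / (addOrderOf t : ℝ) ^ 3) := by
  have ha0 : 0 < addOrderOf t := order_pos t
  have haQ : (0 : ℝ) < (addOrderOf t : ℝ) := by exact_mod_cast ha0
  have hZQ : (0 : ℝ) < Z := by exact_mod_cast hZ
  have haX : addOrderOf t ≤ X :=
    (Nat.le_of_dvd (Nat.pos_of_ne_zero (NeZero.ne R)) (order_dvd t)).trans hRX
  have hcop' : ∀ i j, (P i j).Coprime (addOrderOf t) :=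
    fun i j => (hcop i j).coprime_dvd_right (order_dvd t)
  have hc := hcoll _ (Finset.mem_Icc.2 ⟨hlt, haX⟩) hcop'
  rw [Fin.prod_univ_eight] at hc
  have hyle : ‖chi t (TT Z)‖ ≤ Z := by
    have := norm_chi_le t (TT Z)
    rwa [card_TT] at this
  exact real_ineq (norm_nonneg _) (norm_nonneg _) (norm_nonneg _) (norm_nonneg _) (norm_nonneg _)
    haQ hZQ (by positivity) (Nat.cast_nonneg _) (Nat.cast_nonneg _) (Nat.cast_nonneg _)
    (Nat.cast_nonneg _) (Nat.cast_nonneg _) (Nat.cast_nonneg _) (Nat.cast_nonneg _)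
    (Nat.cast_nonneg _) (norm_chi_DD_sq _ _ t) (norm_chi_DD_sq _ _ t) (norm_chi_DD_sq _ _ t)
    (norm_chi_DD_sq _ _ t) hyle hc

/-- The pointwise bound of the exponential sums when the order of `t` is small. -/
lemma norm_prod_small {n Z : ℕ} (P : Fin 8 → Fin n → ℕ) {t : ZMod R} (ht : t ≠ 0) :
    ‖chi t (DD (P 0) (P 1))‖ ^ 6 * ‖chi t (DD (P 2) (P 3))‖ ^ 6 * ‖chi t (DD (P 4) (P 5))‖ ^ 6 *
      ‖chi t (DD (P 6) (P 7))‖ ^ 6 * ‖chi t (TT Z)‖ ^ 3 ≤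
      (((4 : ℝ) ^ n) ^ 6) ^ 4 * (addOrderOf t : ℝ) ^ 3 := by
  have hle : ∀ p q : Fin n → ℕ, ‖chi t (DD p q)‖ ≤ (4 : ℝ) ^ n := by
    intro p q
    refine (norm_chi_le t _).trans ?_
    rw [card_DD]
    push_cast
    exact le_rfl
  have hyle : ‖chi t (TT Z)‖ ≤ addOrderOf t := by
    rw [chi_TT]
    exact norm_chi_range t ht Z
  have h1 := hle (P 0) (P 1)
  have h2 := hle (P 2) (P 3)
  have h3 := hle (P 4) (P 5)
  have h4 := hle (P 6) (P 7)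
  calc ‖chi t (DD (P 0) (P 1))‖ ^ 6 * ‖chi t (DD (P 2) (P 3))‖ ^ 6 * ‖chi t (DD (P 4) (P 5))‖ ^ 6 *
      ‖chi t (DD (P 6) (P 7))‖ ^ 6 * ‖chi t (TT Z)‖ ^ 3
      ≤ ((4 : ℝ) ^ n) ^ 6 * ((4 : ℝ) ^ n) ^ 6 * ((4 : ℝ) ^ n) ^ 6 * ((4 : ℝ) ^ n) ^ 6 *
          (addOrderOf t : ℝ) ^ 3 := by gcongr
    _ = (((4 : ℝ) ^ n) ^ 6) ^ 4 * (addOrderOf t : ℝ) ^ 3 := by ring

/-- The pointwise bound of the exponential sums. -/
lemma norm_prod_le {n A₂ X Z : ℕ} (P : Fin 8 → Fin n → ℕ) (hZ : 0 < Z)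
    (hRX : R ≤ X)
    (hcop : ∀ i j, (P i j).Coprime R)
    (hcoll : ∀ a ∈ Finset.Icc A₂ X, (∀ i j, (P i j).Coprime a) →
      (a : ℝ) ^ 5 * ∏ i, (coll (P i) a : ℝ) ≤ ((4 : ℝ) ^ n) ^ 8)
    {t : ZMod R} (ht : t ≠ 0) :
    ‖((LL P Z).map (chi t)).prod‖ ≤
      (((4 : ℝ) ^ n) ^ 6) ^ 4 * (Z : ℝ) ^ 3 * gw A₂ Z (addOrderOf t) := by
  have hZQ : (0 : ℝ) < Z := by exact_mod_cast hZ
  rw [prod_map_chi_LL]
  simp only [norm_mul, norm_pow]
  unfold gw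
  by_cases hlt : addOrderOf t < A₂
  · rw [if_pos hlt]
    refine (norm_prod_small P ht).trans (le_of_eq ?_)
    field_simp
  · rw [if_neg hlt]
    push Not at hlt
    exact norm_prod_large P hZ hRX hcop hcoll hlt

/-- The sum of the weights over the non-zero residues is smaller than one. -/
lemma sum_gw_lt {A₂ Z : ℕ} (hA₂ : 4 ≤ A₂) (hZ : 2 * A₂ ^ 5 ≤ Z ^ 3) :
    ∑ t ∈ (univ : Finset (ZMod R)).erase 0, gw A₂ Z (addOrderOf t) < 1 := by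
  classical
  have hR : 0 < R := Nat.pos_of_ne_zero (NeZero.ne R)
  set I := Finset.Icc 2 R with hI
  have hmaps : ∀ t ∈ (univ : Finset (ZMod R)).erase 0, addOrderOf t ∈ I := by
    intro t ht
    have ht0 := (Finset.mem_erase.1 ht).1
    exact Finset.mem_Icc.2 ⟨two_le_order ht0, Nat.le_of_dvd hR (order_dvd t)⟩
  have h1 : ∑ t ∈ (univ : Finset (ZMod R)).erase 0, gw A₂ Z (addOrderOf t)
      ≤ ∑ a ∈ I, (a : ℝ) * gw A₂ Z a := by
    rw [← Finset.sum_fiberwise_of_maps_to hmaps]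
    refine Finset.sum_le_sum fun a ha => ?_
    have ha0 : 0 < a := by
      have := (Finset.mem_Icc.1 ha).1
      omega
    have h2 : ∑ t ∈ ((univ : Finset (ZMod R)).erase 0).filter (fun t => addOrderOf t = a),
        gw A₂ Z (addOrderOf t)
        = ∑ _t ∈ ((univ : Finset (ZMod R)).erase 0).filter (fun t => addOrderOf t = a),
            gw A₂ Z a := by
      refine Finset.sum_congr rfl fun t ht => ?_
      rw [(Finset.mem_filter.1 ht).2]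
    rw [h2, Finset.sum_const, nsmul_eq_mul]
    have h3 : (((univ : Finset (ZMod R)).erase 0).filter (fun t => addOrderOf t = a)).card ≤ a := by
      refine le_trans (Finset.card_le_card ?_) (card_order_le (R := R) a ha0)
      intro t ht
      exact Finset.mem_filter.2 ⟨Finset.mem_univ _, (Finset.mem_filter.1 ht).2⟩
    have h4 := gw_nonneg A₂ Z a
    have h5 : (((((univ : Finset (ZMod R)).erase 0).filter
        (fun t => addOrderOf t = a)).card : ℕ) : ℝ) ≤ a := by exact_mod_cast h3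
    gcongr
  have hA₂Q : (4 : ℝ) ≤ A₂ := by exact_mod_cast hA₂
  have hZ0 : 0 < Z := by
    rcases Nat.eq_zero_or_pos Z with rfl | h
    · have : 0 < A₂ ^ 5 := by positivity
      simp at hZ
      omega
    · exact h
  have hZQ : (0 : ℝ) < Z := by exact_mod_cast hZ0
  have hZ3 : (2 : ℝ) * (A₂ : ℝ) ^ 5 ≤ (Z : ℝ) ^ 3 := by exact_mod_cast hZ
  -- split the sum
  have h2 : ∀ a ∈ I, (a : ℝ) * gw A₂ Z a ≤
      (if a < A₂ then (A₂ : ℝ) ^ 4 / (Z : ℝ) ^ 3 else 0) +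
        (if a < A₂ then 0 else ((a : ℝ) ^ 2)⁻¹) := by
    intro a ha
    have ha2 := (Finset.mem_Icc.1 ha).1
    have haQ : (0 : ℝ) < a := by
      have : 0 < a := by omega
      exact_mod_cast this
    unfold gw
    by_cases hlt : a < A₂
    · simp only [hlt, if_true, add_zero]
      have h3 : (a : ℝ) ≤ A₂ := by exact_mod_cast hlt.le
      calc (a : ℝ) * ((a : ℝ) ^ 3 / (Z : ℝ) ^ 3) = (a : ℝ) ^ 4 / (Z : ℝ) ^ 3 := by ring
        _ ≤ (A₂ : ℝ) ^ 4 / (Z : ℝ) ^ 3 := by gcongr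
    · simp only [hlt, if_false, zero_add]
      apply le_of_eq
      field_simp
  have h3 : ∑ a ∈ I, (if a < A₂ then (A₂ : ℝ) ^ 4 / (Z : ℝ) ^ 3 else 0) ≤ 1 / 2 := by
    rw [← Finset.sum_filter, Finset.sum_const, nsmul_eq_mul]
    have h4 : ((I.filter fun a => a < A₂).card : ℝ) ≤ A₂ := by
      have h5 : (I.filter fun a => a < A₂).card ≤ (Finset.range A₂).card := by
        apply Finset.card_le_card
        intro a ha
        exact Finset.mem_range.2 (Finset.mem_filter.1 ha).2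
      rw [Finset.card_range] at h5
      exact_mod_cast h5
    calc ((I.filter fun a => a < A₂).card : ℝ) * ((A₂ : ℝ) ^ 4 / (Z : ℝ) ^ 3)
        ≤ (A₂ : ℝ) * ((A₂ : ℝ) ^ 4 / (Z : ℝ) ^ 3) := by gcongr
      _ ≤ 1 / 2 := by
        rw [← mul_div_assoc, div_le_iff₀ (by positivity)]
        nlinarith
  have h4 : ∑ a ∈ I, (if a < A₂ then 0 else ((a : ℝ) ^ 2)⁻¹) ≤ 1 / 3 := by
    rw [Finset.sum_ite]
    simp only [Finset.sum_const_zero, zero_add]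
    set M := max R A₂ with hM
    have h5 : ∑ a ∈ I.filter (fun a => ¬ a < A₂), ((a : ℝ) ^ 2)⁻¹
        ≤ ∑ a ∈ Finset.Ioc (A₂ - 1) M, ((a : ℝ) ^ 2)⁻¹ := by
      apply Finset.sum_le_sum_of_subset_of_nonneg
      · intro a ha
        obtain ⟨h6, h7⟩ := Finset.mem_filter.1 ha
        have h8 := (Finset.mem_Icc.1 h6).2
        refine Finset.mem_Ioc.2 ⟨by omega, le_trans h8 (le_max_left _ _)⟩
      · intro _ _ _
        positivity
    have h6 := sum_Ioc_inv_sq_le_sub (α := ℝ) (k := A₂ - 1) (n := M) (by omega)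
      (le_trans (Nat.sub_le _ _) (le_max_right _ _))
    have h7 : ((M : ℝ))⁻¹ ≥ 0 := by positivity
    have h8 : ((A₂ - 1 : ℕ) : ℝ)⁻¹ ≤ 1 / 3 := by
      rw [one_div]
      apply inv_anti₀ (by norm_num)
      have : 3 ≤ A₂ - 1 := by omega
      exact_mod_cast this
    linarith
  calc ∑ t ∈ (univ : Finset (ZMod R)).erase 0, gw A₂ Z (addOrderOf t)
      ≤ ∑ a ∈ I, (a : ℝ) * gw A₂ Z a := h1
    _ ≤ ∑ a ∈ I, ((if a < A₂ then (A₂ : ℝ) ^ 4 / (Z : ℝ) ^ 3 else 0) +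
        (if a < A₂ then 0 else ((a : ℝ) ^ 2)⁻¹)) := Finset.sum_le_sum h2
    _ = ∑ a ∈ I, (if a < A₂ then (A₂ : ℝ) ^ 4 / (Z : ℝ) ^ 3 else 0) +
        ∑ a ∈ I, (if a < A₂ then 0 else ((a : ℝ) ^ 2)⁻¹) := Finset.sum_add_distrib
    _ < 1 := by linarith

/-- The covering statement for one modulus. -/
theorem exists_solution {n A₂ X Z : ℕ} (P : Fin 8 → Fin n → ℕ)
    (hA₂ : 4 ≤ A₂) (hZ : 2 * A₂ ^ 5 ≤ Z ^ 3) (hRX : R ≤ X)
    (hcop : ∀ i j, (P i j).Coprime R)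
    (hcoll : ∀ a ∈ Finset.Icc A₂ X, (∀ i j, (P i j).Coprime a) →
      (a : ℝ) ^ 5 * ∏ i, (coll (P i) a : ℝ) ≤ ((4 : ℝ) ^ n) ^ 8) :
    ∃ d : List ℕ, List.Forall₂ (· ∈ ·) d (LL P Z) ∧ R ∣ d.sum := by
  have hZ0 : 0 < Z := by
    rcases Nat.eq_zero_or_pos Z with rfl | h
    · have : 0 < A₂ ^ 5 := by positivity
      simp at hZ
      omega
    · exact h
  have hZQ : (0 : ℝ) < Z := by exact_mod_cast hZ0
  set W : ℝ := (((4 : ℝ) ^ n) ^ 6) ^ 4 * (Z : ℝ) ^ 3 with hW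
  have hWpos : 0 < W := by positivity
  have hdom : ∑ t ∈ (univ : Finset (ZMod R)).erase 0, ‖((LL P Z).map (chi t)).prod‖
      < (((LL P Z).map Multiset.card).prod : ℝ) := by
    have h1 : (((LL P Z).map Multiset.card).prod : ℝ) = W := by
      have := prod_map_card_LL P Z
      rw [hW]
      exact_mod_cast this
    rw [h1]
    calc ∑ t ∈ (univ : Finset (ZMod R)).erase 0, ‖((LL P Z).map (chi t)).prod‖
        ≤ ∑ t ∈ (univ : Finset (ZMod R)).erase 0, W * gw A₂ Z (addOrderOf t) := by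
          refine Finset.sum_le_sum fun t ht => ?_
          exact norm_prod_le P hZ0 hRX hcop hcoll (Finset.mem_erase.1 ht).1
      _ = W * ∑ t ∈ (univ : Finset (ZMod R)).erase 0, gw A₂ Z (addOrderOf t) := by
          rw [Finset.mul_sum]
      _ < W * 1 := by
          exact mul_lt_mul_of_pos_left (sum_gw_lt hA₂ hZ) hWpos
      _ = W := mul_one W
  obtain ⟨d, hd1, hd2⟩ := exists_of_sum_ne_zero _ 0 (sum_ne_zero_of_dominant _ hdom)
  exact ⟨d, hd1, by simpa using hd2⟩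

end

lemma mem_of_forall₂ {d : List ℕ} {Ls : List (Multiset ℕ)} (h : List.Forall₂ (· ∈ ·) d Ls)
    {N : ℕ} (hN : ∀ D ∈ Ls, ∀ x ∈ D, x ∣ N) : ∀ x ∈ d, x ∣ N := by
  induction h with
  | nil => simp
  | cons h1 _ ih =>
    intro x hx
    rcases List.mem_cons.1 hx with rfl | hx
    · exact hN _ (by simp) _ h1
    · exact ih (fun D hD y hy => hN D (by simp [hD]) y hy) x hx

lemma pw_dvd {n : ℕ} (p : Fin n → ℕ) (A : Finset (Fin n)) : pw p A ∣ ∏ j, p j :=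
  Finset.prod_dvd_prod_of_subset _ _ _ (Finset.subset_univ _)

/-- All summands divide `Z! ∏ P`. -/
lemma dvd_of_mem_LL {n Z : ℕ} (P : Fin 8 → Fin n → ℕ) :
    ∀ D ∈ LL P Z, ∀ x ∈ D, x ∣ Z.factorial * ∏ i, ∏ j, P i j := by
  have hDD : ∀ i₁ i₂ : Fin 8, i₁ ≠ i₂ → ∀ x ∈ DD (P i₁) (P i₂),
      x ∣ Z.factorial * ∏ i, ∏ j, P i j := by
    intro i₁ i₂ hne x hx
    obtain ⟨z, _, rfl⟩ := Multiset.mem_map.1 hx
    refine Dvd.dvd.mul_left ?_ _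
    have h1 : (∏ j, P i₁ j) * (∏ j, P i₂ j) ∣ ∏ i, ∏ j, P i j := by
      rw [← Finset.prod_pair hne (f := fun i => ∏ j, P i j)]
      exact Finset.prod_dvd_prod_of_subset _ _ _ (Finset.subset_univ _)
    exact (mul_dvd_mul (pw_dvd _ _) (pw_dvd _ _)).trans h1
  intro D hD x hx
  simp only [LL, List.mem_append, List.mem_replicate] at hD
  rcases hD with (((⟨_, rfl⟩ | ⟨_, rfl⟩) | ⟨_, rfl⟩) | ⟨_, rfl⟩) | ⟨_, rfl⟩
  · exact hDD 0 1 (by decide) x hx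
  · exact hDD 2 3 (by decide) x hx
  · exact hDD 4 5 (by decide) x hx
  · exact hDD 6 7 (by decide) x hx
  · obtain ⟨m, hm, rfl⟩ := Multiset.mem_map.1 hx
    have hm' : m < Z := Finset.mem_range.1 hm
    exact Dvd.dvd.mul_right (Nat.dvd_factorial (by omega) (by omega)) _

lemma length_LL {n Z : ℕ} (P : Fin 8 → Fin n → ℕ) : (LL P Z).length = 27 := by
  simp [LL]

/-- The covering theorem. -/
theorem covering {n A₂ X Z : ℕ} (P : Fin 8 → Fin n → ℕ) (hpos : ∀ i j, 0 < P i j)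
    (hA₂ : 4 ≤ A₂) (hZ : 2 * A₂ ^ 5 ≤ Z ^ 3)
    (hcoll : ∀ a ∈ Finset.Icc A₂ X, (∀ i j, (P i j).Coprime a) →
      (a : ℝ) ^ 5 * ∏ i, (coll (P i) a : ℝ) ≤ ((4 : ℝ) ^ n) ^ 8) :
    ∀ R, 1 ≤ R → R ≤ X → (∀ i j, (P i j).Coprime R) →
      ∃ d : List ℕ, (∀ x ∈ d, x ∣ Z.factorial * ∏ i, ∏ j, P i j) ∧ d.length ≤ 27 ∧
        0 < d.sum ∧ R ∣ d.sum := by
  intro R hR hRX hcop
  haveI : NeZero R := ⟨by omega⟩
  obtain ⟨d, hd1, hd2⟩ := exists_solution P hA₂ hZ hRX hcop hcoll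
  have hlen : d.length = 27 := by
    rw [hd1.length_eq, length_LL]
  have hdvd := mem_of_forall₂ hd1 (dvd_of_mem_LL P)
  have hN : 0 < Z.factorial * ∏ i, ∏ j, P i j :=
    Nat.mul_pos (Nat.factorial_pos _)
      (Finset.prod_pos fun i _ => Finset.prod_pos fun j _ => hpos i j)
  refine ⟨d, hdvd, hlen.le, ?_, hd2⟩
  refine List.sum_pos d (fun x hx => Nat.pos_of_dvd_of_pos (hdvd x hx) hN) ?_
  intro h
  rw [h] at hlen
  simp at hlen

end Vale.Agent.Lib.P012d
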